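import Vale.Agent.P281.H969.TG.Spec
import Vale.Agent.P281.H383.U.Tame

/-! P281, project T-G, block G1 (helper282): the lifts of the slices by a holomorphic map are tame. -/

open scoped Manifold ContDiff Topology ComplexConjugate ComplexOrder
open Set Filter Metric

noncomputable section

namespace Vale.Agent.P281.H282.TG

open Vale.Agent.P281 Vale.Agent.P272.K Vale.Agent.P281.H64.TU Vale.Agent.P281.H969.TG
open Vale.Agent.P281.H383.U (hf hf_change hf_lower)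

/-- The bound, near a point of `X₁`. -/
theorem local_bound {n d : ℕ} {X₁ X : Type} [TopologicalSpace X₁] [ChartedSpace (Cm n) X₁]
    [IsManifold 𝓘(ℂ, Cm n) ω X₁] [TopologicalSpace X] [ChartedSpace (Cm n) X]
    [IsManifold 𝓘(ℂ, Cm n) ω X] {u : X₁ → X} {w : Chart n X₁ → Cm n → Matrix (Fin n) (Fin n) ℂ}
    (hu : ContMDiff 𝓘(ℂ, Cm n) 𝓘(ℂ, Cm n) ω u) (hw : IsHermitian w) (z₀ : X)
    (P : Cm n →L[ℂ] Cm d) (x₁ : X₁) (hy : u x₁ ∈ (chartAt (Cm n) z₀).source) :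
    ∃ N ∈ 𝓝 x₁, ∃ K : ℝ, 0 < K ∧ ∀ (Q : Cm d → X₁) (v : Cm d),
      ContMDiffAt 𝓘(ℂ, Cm d) 𝓘(ℂ, Cm n) ω Q v → Q v ∈ N →
      (∀ᶠ s in 𝓝 v, P (chartAt (Cm n) z₀ (u (Q s))) = s) →
      ∀ e : Chart n X₁, At e (Q v) → ∀ ξ : Cm d,
        ‖ξ‖ ^ 2 ≤ K * (hf (w e (e (Q v))) (fderiv ℂ (fun u => e (Q u)) v ξ)).re := by
  set φ : Chart n X := chartAt (Cm n) z₀ with hφ
  set ψ : Chart n X₁ := chartAt (Cm n) x₁ with hψ
  have hψa : ψ ∈ atlas (Cm n) X₁ := chart_mem_atlas _ _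
  have hψs : x₁ ∈ ψ.source := mem_chart_source _ _
  have hsm : ∀ i j, ContinuousAt (fun c => w ψ c i j) (ψ x₁) := fun i j =>
    (hw.smooth ψ x₁ ⟨hψa, hψs⟩ i j).continuousAt
  obtain ⟨m, hm, hlow⟩ := hf_lower (A := fun c => w ψ c) hsm (hw.posDef ψ x₁ ⟨hψa, hψs⟩)
  have hψc : ContinuousAt ψ x₁ := ψ.continuousAt hψs
  -- `u` in the charts
  have hG : AnalyticAt ℂ (fun c => φ (u (ψ.symm c))) (ψ x₁) := by
    have h1 : ContMDiffAt 𝓘(ℂ, Cm n) 𝓘(ℂ, Cm n) ω ψ.symm (ψ x₁) :=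
      contMDiffAt_symm_of_mem_maximalAtlas (IsManifold.chart_mem_maximalAtlas x₁)
        (ψ.map_source hψs)
    have h2 : ContMDiffAt 𝓘(ℂ, Cm n) 𝓘(ℂ, Cm n) ω φ (u (ψ.symm (ψ x₁))) := by
      rw [ψ.left_inv hψs]
      exact contMDiffAt_of_mem_maximalAtlas (IsManifold.chart_mem_maximalAtlas z₀) hy
    have h3 : ContMDiffAt 𝓘(ℂ, Cm n) 𝓘(ℂ, Cm n) ω (fun c => φ (u (ψ.symm c))) (ψ x₁) :=
      ContMDiffAt.comp (ψ x₁) h2 (ContMDiffAt.comp (ψ x₁) (hu _) h1)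
    have h4 : ContDiffWithinAt ℂ ω (fun c => φ (u (ψ.symm c))) univ (ψ x₁) :=
      (contMDiffAt_iff_contDiffAt.1 h3).contDiffWithinAt
    have h5 := contDiffWithinAt_omega_iff_analyticWithinAt.1 h4
    rwa [analyticWithinAt_univ] at h5
  set G : Cm n → Cm n := fun c => φ (u (ψ.symm c)) with hGdef
  set B : ℝ := ‖fderiv ℂ G (ψ x₁)‖ + 1 with hB
  have hBpos : 0 < B := by positivity
  have hGb : ∀ᶠ c in 𝓝 (ψ x₁), ‖fderiv ℂ G c‖ < B := by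
    have h1 : ContinuousAt (fun c => ‖fderiv ℂ G c‖) (ψ x₁) := hG.fderiv.continuousAt.norm
    exact h1.eventually_lt_const (by simp [hB])
  have hGd : ∀ᶠ c in 𝓝 (ψ x₁), DifferentiableAt ℂ G c :=
    hG.eventually_analyticAt.mono fun c hc => hc.differentiableAt
  refine ⟨{z | z ∈ ψ.source ∧ (∀ u : Cm n, m * ‖u‖ ^ 2 ≤ (hf (w ψ (ψ z)) u).re) ∧
      ‖fderiv ℂ G (ψ z)‖ < B ∧ DifferentiableAt ℂ G (ψ z)},
    (ψ.open_source.eventually_mem hψs).and ((hψc.eventually hlow).and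
      ((hψc.eventually hGb).and (hψc.eventually hGd))), ((‖P‖ * B) ^ 2 + 1) / m, by positivity, ?_⟩
  intro Q v hQv hQN hQe e he ξ
  obtain ⟨hQs, hQl, hQB, hQD⟩ := hQN
  have hn : (ω : WithTop ℕ∞) ≠ 0 := by simp
  have hAt : At ψ (Q v) := ⟨hψa, hQs⟩
  -- the slice in the chart `ψ`
  have hd : DifferentiableAt ℂ (fun u => ψ (Q u)) v := by
    have h1 : ContMDiffAt 𝓘(ℂ, Cm n) 𝓘(ℂ, Cm n) ω ψ (Q v) :=
      contMDiffAt_of_mem_maximalAtlas (IsManifold.chart_mem_maximalAtlas x₁) hQs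
    have h2 : ContMDiffAt 𝓘(ℂ, Cm d) 𝓘(ℂ, Cm n) ω (fun u => ψ (Q u)) v :=
      ContMDiffAt.comp v h1 hQv
    exact (contMDiffAt_iff_contDiffAt.1 h2).differentiableAt hn
  set D : Cm d →L[ℂ] Cm n := fderiv ℂ (fun u => ψ (Q u)) v with hD
  have hPD : P (fderiv ℂ G (ψ (Q v)) (D ξ)) = ξ := by
    have h0 : HasFDerivAt (fun s => G (ψ (Q s))) ((fderiv ℂ G (ψ (Q v))).comp D) v :=
      HasFDerivAt.comp (g := G) v hQD.hasFDerivAt hd.hasFDerivAt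
    have h1 : HasFDerivAt (fun s => P (G (ψ (Q s)))) (P.comp ((fderiv ℂ G (ψ (Q v))).comp D)) v :=
      P.hasFDerivAt.comp v h0
    have h2 : (fun s => P (G (ψ (Q s)))) =ᶠ[𝓝 v] fun s => s := by
      filter_upwards [hQv.continuousAt.eventually (ψ.open_source.eventually_mem hQs), hQe]
        with s hs hs'
      rw [hGdef]
      simp only
      rw [ψ.left_inv hs]
      exact hs'
    have h3 : HasFDerivAt (fun u : Cm d => u) (P.comp ((fderiv ℂ G (ψ (Q v))).comp D)) v :=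
      h1.congr_of_eventuallyEq h2.symm
    have h4 := h3.unique (hasFDerivAt_id v)
    exact congrArg (fun L : Cm d →L[ℂ] Cm d => L ξ) h4
  -- the change of chart
  have hde : fderiv ℂ (fun u => e (Q u)) v ξ = (jacM ψ e (Q v)).mulVec (D ξ) := by
    have h1 : DifferentiableAt ℂ (fun w => e (ψ.symm w)) (ψ (Q v)) :=
      (INT.transition_contDiffAt hAt he).differentiableAt (by simp)
    have h2 : (fun u => e (Q u)) =ᶠ[𝓝 v] fun u => e (ψ.symm (ψ (Q u))) := by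
      filter_upwards [hQv.continuousAt.eventually (ψ.open_source.eventually_mem hQs)] with u hu
      rw [ψ.left_inv hu]
    have h3 : HasFDerivAt (fun u => e (ψ.symm (ψ (Q u))))
        ((fderiv ℂ (fun w => e (ψ.symm w)) (ψ (Q v))).comp D) v :=
      HasFDerivAt.comp (g := fun w => e (ψ.symm w)) v h1.hasFDerivAt hd.hasFDerivAt
    rw [h2.fderiv_eq, h3.fderiv, ContinuousLinearMap.comp_apply]
    funext q
    simp only [Matrix.mulVec, dotProduct]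
    have h4 : ∀ i, jacM ψ e (Q v) q i =
        fderiv ℂ (fun w => e (ψ.symm w)) (ψ (Q v)) (Pi.single i 1) q := fun i =>
      H713.SA.jacM_apply hAt he q i
    simp only [h4]
    conv_lhs => rw [← Finset.univ_sum_single (D ξ)]
    rw [map_sum, Finset.sum_apply]
    refine Finset.sum_congr rfl fun i _ => ?_
    have h5 : (Pi.single i (D ξ i) : Cm n) = (D ξ i) • (Pi.single i 1 : Cm n) := by
      rw [← Pi.single_smul, smul_eq_mul, mul_one]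
    rw [h5, map_smul, Pi.smul_apply, smul_eq_mul, mul_comm]
  have hform : hf (w e (e (Q v))) (fderiv ℂ (fun u => e (Q u)) v ξ) =
      hf (w ψ (ψ (Q v))) (D ξ) := by
    rw [hde, ← hf_change, ← hw.change ψ e (Q v) hAt he]
  rw [hform]
  have h1 : ‖ξ‖ ≤ ‖P‖ * B * ‖D ξ‖ := by
    have h2 := P.le_opNorm (fderiv ℂ G (ψ (Q v)) (D ξ))
    rw [hPD] at h2
    have h3 : ‖fderiv ℂ G (ψ (Q v)) (D ξ)‖ ≤ B * ‖D ξ‖ :=
      ((fderiv ℂ G (ψ (Q v))).le_opNorm (D ξ)).trans (by gcongr)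
    calc ‖ξ‖ ≤ ‖P‖ * ‖fderiv ℂ G (ψ (Q v)) (D ξ)‖ := h2
      _ ≤ ‖P‖ * (B * ‖D ξ‖) := by gcongr
      _ = ‖P‖ * B * ‖D ξ‖ := by ring
  calc ‖ξ‖ ^ 2 ≤ (‖P‖ * B * ‖D ξ‖) ^ 2 := by gcongr
    _ ≤ ((‖P‖ * B) ^ 2 + 1) * ‖D ξ‖ ^ 2 := by
        rw [mul_pow]
        nlinarith [sq_nonneg ‖D ξ‖]
    _ = ((‖P‖ * B) ^ 2 + 1) / m * (m * ‖D ξ‖ ^ 2) := by field_simp
    _ ≤ ((‖P‖ * B) ^ 2 + 1) / m * (hf (w ψ (ψ (Q v))) (D ξ)).re := by
        gcongr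
        exact hQl (D ξ)

/-- **G1**. -/
theorem tameU : TameUStmt := by
  intro n d X₁ X _ _ _ _ _ _ _ _ u w₁ hu hw y z₀ P hy
  have hloc : ∀ x₁ : X₁, u x₁ = y → ∃ N : Set X₁, IsOpen N ∧ x₁ ∈ N ∧ ∃ K : ℝ, 0 < K ∧
      ∀ (Q : Cm d → X₁) (v : Cm d),
      ContMDiffAt 𝓘(ℂ, Cm d) 𝓘(ℂ, Cm n) ω Q v → Q v ∈ N →
      (∀ᶠ s in 𝓝 v, P (chartAt (Cm n) z₀ (u (Q s))) = s) →
      ∀ e : Chart n X₁, At e (Q v) → ∀ ξ : Cm d,
        ‖ξ‖ ^ 2 ≤ K * (hf (w₁ e (e (Q v))) (fderiv ℂ (fun u => e (Q u)) v ξ)).re := by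
    intro x₁ hx
    obtain ⟨N, hN, K, hK, h⟩ := local_bound hu hw z₀ P x₁ (by rw [hx]; exact hy)
    obtain ⟨N', hN', hNo, hxN⟩ := mem_nhds_iff.1 hN
    exact ⟨N', hNo, hxN, K, hK, fun Q v h1 h2 => h Q v h1 (hN' h2)⟩
  choose! N hNo hxN K hK h using hloc
  have hcl : IsCompact (u ⁻¹' {y}) := (isClosed_singleton.preimage hu.continuous).isCompact
  obtain ⟨t, hcov⟩ := hcl.elim_nhds_subcover' (fun x _ => N x)
    (fun x hx => (hNo x hx).mem_nhds (hxN x hx))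
  set U : Set X₁ := ⋃ x ∈ t, N x.1 with hU
  have hUo : IsOpen U := isOpen_biUnion fun x _ => hNo x.1 x.2
  have hV : {z | ∀ x₁, u x₁ = z → x₁ ∈ U} ∈ 𝓝 y := by
    have h1 : IsClosed (u '' Uᶜ) := (hUo.isClosed_compl.isCompact.image hu.continuous).isClosed
    refine mem_of_superset (h1.isOpen_compl.mem_nhds ?_) ?_
    · show y ∉ u '' Uᶜ
      intro hmem
      obtain ⟨x, hx, hxy⟩ := hmem
      exact hx (hcov hxy)
    · intro z hz x₁ hx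
      by_contra hxU
      exact hz ⟨x₁, hxU, hx⟩
  refine ⟨_, hV, ∑ x ∈ t, K x.1 + 1, by
    have : 0 ≤ ∑ x ∈ t, K x.1 := Finset.sum_nonneg fun x _ => (hK x.1 x.2).le
    linarith, ?_⟩
  intro Q v₀ r hr hQ Q₁ hQ₁ v hv e he ξ
  obtain ⟨hv1, hv2⟩ := hQ₁ v hv
  have hmem : Q₁ v ∈ U := (hQ v hv).2.1 (Q₁ v) hv2
  rw [hU, mem_iUnion₂] at hmem
  obtain ⟨x, hxt, hx⟩ := hmem
  have hev : ∀ᶠ s in 𝓝 v, P (chartAt (Cm n) z₀ (u (Q₁ s))) = s := by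
    filter_upwards [isOpen_ball.mem_nhds hv] with s hs
    rw [(hQ₁ s hs).2]
    exact (hQ s hs).2.2
  have hb := h x.1 x.2 Q₁ v hv1 hx hev e he ξ
  show ‖ξ‖ ^ 2 ≤ (∑ x ∈ t, K x.1 + 1) *
    (hf (w₁ e (e (Q₁ v))) (fderiv ℂ (fun u => e (Q₁ u)) v ξ)).re
  have hKle : K x.1 ≤ ∑ x ∈ t, K x.1 + 1 := by
    have := Finset.single_le_sum (f := fun x : ↥(u ⁻¹' {y}) => K x.1)
      (fun i _ => (hK i.1 i.2).le) hxt
    linarith
  have hpos : 0 ≤ (hf (w₁ e (e (Q₁ v))) (fderiv ℂ (fun u => e (Q₁ u)) v ξ)).re := by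
    by_contra hneg
    push Not at hneg
    have := mul_neg_of_pos_of_neg (hK x.1 x.2) hneg
    have h2 := sq_nonneg ‖ξ‖
    linarith
  exact hb.trans (mul_le_mul_of_nonneg_right hKle hpos)

end Vale.Agent.P281.H282.TG
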